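import Vale.Agent.P225.Dim

namespace Vale.Agent.Results.P225.RotationallySymmetric

open Vale.Agent.P225 Filter

theorem result (n : ℕ) (hn : 2 ≤ n) (Φ : Euc n → ℝ) (hΦ : ContDiff ℝ 2 Φ)
    (hrad : ∀ x y : Euc n, ‖x‖ = ‖y‖ → Φ x = Φ y)
    (hric : ∀ x v : Euc n, 0 ≤ ricci Φ x v)
    (hcomplete : Tendsto (segLength Φ) (cocompact (Euc n)) atTop)
    (d : ℝ) (hd : 0 ≤ d) (m : ℕ) (u : Fin m → Euc n → ℝ)
    (hu : ∀ i, ContDiff ℝ 2 (u i) ∧ IsHarmonic Φ (u i) ∧ HasGrowth Φ d (u i))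
    (hli : LinearIndependent ℝ u) :
    m ≤ harmonicDim n ⌊d⌋₊ :=
  card_le_harmonicDim hn hΦ hrad hric hcomplete hd (fun i => (hu i).1) (fun i => (hu i).2.1)
    (fun i => (hu i).2.2) hli

end Vale.Agent.Results.P225.RotationallySymmetric
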