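import Vale.Agent.P225.Full.Assembly
import Vale.Agent.P225.Full.Reach
import Vale.Agent.P225.Full.Control.Gen

/-!
# Yau's dimension comparison fails

There are a `k ≥ 1` and a complete metric with nonnegative Ricci curvature on an open connected
subset of `ℝ^34` with more than `h_k(ℝ^34)` independent harmonic functions of growth order `k`.
-/

namespace Vale.Agent.Results.P225.YauComparisonFalse

open Vale.Agent.P225.Full

theorem result : ∃ k : ℕ, 1 ≤ k ∧ YauCounterexample 34 k :=
  Asm.yau_of_reach (reach_of generation)

end Vale.Agent.Results.P225.YauComparisonFalse
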